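import Vale.Agent.P027M.Top.All
import Vale.Agent.P027M.Top.Fin2

/-! # P027 : Hilbert's tenth problem over the rationals has a negative answer -/

namespace Vale.Agent.Results.P027.A_Undecidable

open MvPolynomial

theorem result :
    (¬ ∃ d : ℕ × List (ℤ × List ℕ) → Bool, Computable d ∧
      ∀ (n : ℕ) (F : List (ℤ × List (Fin n))), 1 ≤ n →
        (d (n, F.map fun t => (t.1, t.2.map Fin.val)) = true ↔ ∃ y : Fin n → ℚ,
          aeval y ((F.map fun t => C t.1 * (t.2.map X).prod).sum : MvPolynomial (Fin n) ℤ) = 0)) ∧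
    (∀ (n : ℕ) (f : MvPolynomial (Fin n) ℤ), ∃ F : List (ℤ × List (Fin n)),
      (F.map fun t => C t.1 * (t.2.map X).prod).sum = f) ∧
    (∃ (m : ℕ) (g : MvPolynomial (Option (Fin m)) ℤ), ∀ x : ℚ, (∃ n : ℤ, x = n) ↔
      ∃ y : Fin m → ℚ, aeval (fun o : Option (Fin m) => o.elim x y) g = 0) ∧
    (∀ p : ℕ → Prop, REPred p → ∃ (m : ℕ) (g : MvPolynomial (Option (Fin m)) ℤ), ∀ a : ℕ,
      p a ↔ ∃ y : Fin m → ℚ, aeval (fun o : Option (Fin m) => o.elim (a : ℚ) y) g = 0) ∧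
    (∃ (m : ℕ) (g : MvPolynomial (Option (Fin m)) ℤ), ¬ ComputablePred fun a : ℕ =>
      ∃ y : Fin m → ℚ, aeval (fun o : Option (Fin m) => o.elim (a : ℚ) y) g = 0) :=
  Vale.Agent.P027M.Fin.fin_of_neg Vale.Agent.P027M.Top.neg0

end Vale.Agent.Results.P027.A_Undecidable
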