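import Vale.Agent.P027G.Final
import Vale.Agent.P027G.Rel
import Vale.Agent.P027G.Gt
import Vale.Agent.P027G.Sz
import Vale.Agent.P027G.Maj

namespace Vale.Agent.Results.P027.AbcProgressions

open MvPolynomial Vale.Agent.P027Z Vale.Agent.P027G

theorem result :
    (∀ j : ℕ, ∃ (m : ℕ) (g : MvPolynomial (Option (Fin m)) ℤ),
      (∀ n : ℤ, ∃ y : Fin m → ℚ, aeval (fun o : Option (Fin m) => o.elim (n : ℚ) y) g = 0) ∧
      ∀ (x : ℚ) (y : Fin m → ℚ), aeval (fun o : Option (Fin m) => o.elim x y) g = 0 →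
        ∃ b : ℕ, x.den = b ^ 2 ^ j) ∧
    (∀ (k j κ : ℕ) (C : ℝ) (G : Set ℚ),
      (∀ x d : ℕ, 0 < d → (∀ i < k, (x + i * d).Prime ∧ (x + i * d) % 24 = 17) →
        (d : ℚ) / x ∈ G) → (∀ s ∈ G, GoodK k (2 ^ j) κ C s) →
      ∃ (m : ℕ) (S : Finset (Fin m)) (g : MvPolynomial (Option (Fin m)) ℤ), ∀ x : ℚ,
        (∃ n : ℤ, x = n) ↔ ∃ y : Fin m → ℚ, (∀ i ∈ S, y i ∈ G) ∧
          aeval (fun o : Option (Fin m) => o.elim x y) g = 0) ∧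
    (∀ (k j κ : ℕ) (C : ℝ), 2 ≤ k → 1 ≤ j → 1 ≤ κ → 1 ≤ C → ∀ x d : ℕ, 0 < d →
      (∀ i < k, (x + i * d).Prime) → GoodK k (2 ^ j) κ C ((d : ℚ) / x)) ∧
    (((∃ (k j κ : ℕ) (C : ℝ) (r : ℕ) (h : MvPolynomial (Option (Fin r)) ℤ),
        (∀ x d : ℕ, 0 < d → (∀ i < k, (x + i * d).Prime ∧ (x + i * d) % 24 = 17) →
          ∃ z : Fin r → ℚ, aeval (fun o : Option (Fin r) => o.elim ((d : ℚ) / x) z) h = 0) ∧
        ∀ (s : ℚ) (z : Fin r → ℚ), aeval (fun o : Option (Fin r) => o.elim s z) h = 0 →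
          GoodK k (2 ^ j) κ C s) ∨
      (∃ (R : Finset ℚ) (T : ℚ) (j κ : ℕ) (C : ℝ), ∀ t : ℚ, T < t →
        Real.log (max t.num.natAbs t.den : ℕ) ≤
          C * (radN (2 ^ j) t.den * ∏ r ∈ R, radN (2 ^ j) (t - r).num.natAbs : ℕ) ^ κ) ∨
      (∃ (L : List ℚ) (T : ℚ) (j κ : ℕ) (C : ℝ), ∀ (B : ℤ) (t y : ℚ), T < t → y ≠ 0 →
        B * y ^ 2 ^ j = (L.map fun r => t - r).prod →
        Real.log (max t.num.natAbs t.den : ℕ) ≤ C * |(B : ℝ)| ^ κ) ∨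
      (∃ (a b c m j κ : ℕ) (T : ℚ) (C : ℝ), m ∈ [1, 3, 5, 7, 9] ∧ a ∣ 2 ^ j ∧ b ∣ 2 ^ j ∧
        c ∣ m * 2 ^ j ∧ ∀ t : ℚ, T < t → Real.log (max t.num.natAbs t.den : ℕ) ≤
          C * (radN a t.num.natAbs * radN b (t.den - t.num).natAbs * radN c t.den : ℕ) ^ κ) ∨
      ∃ k K : ℕ, ∀ a b : ℕ, 0 < a → 0 < b → a.Coprime b →
        a + b ≤ K * (∏ p ∈ (a * b * (a + b)).primeFactors, p) ^ k) →
      (∃ (m : ℕ) (g : MvPolynomial (Option (Fin m)) ℤ), ∀ x : ℚ,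
        (∃ n : ℤ, x = n) ↔ ∃ y : Fin m → ℚ, aeval (fun o : Option (Fin m) => o.elim x y) g = 0) ∧
      ¬ ComputablePred (fun F : List (ℤ × List ℕ) =>
        ∃ y : ℕ → ℚ, (F.map fun t => (t.1 : ℚ) * (t.2.map y).prod).sum = 0)) :=
  ⟨thmA (parStar c1 p1), thmK a1 a2 (parStar c1 p1) (gt (rel szw) maj),
    fun _ _ _ _ hk hj hκ hC _ _ hd h => goodK_prime hk hj hκ hC hd (by simpa using h 0 (by omega))
      (by simpa using h 1 (by omega)), neg_of_any (gt (rel szw) maj)⟩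

end Vale.Agent.Results.P027.AbcProgressions
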